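import Vale.Agent.P157.Critical

namespace Vale.Agent.Results.P157.FreeEnergy

open MeasureTheory ProbabilityTheory Filter Vale.Agent.P157
open scoped Topology

/-- For potentials `f` with `exp f = a - V`, `V` a Fourier transform of a finite measure and
`a > V 0`, the expected pressures converge at every density, to the cavity variational formula,
lie below Gardner's replica-symmetric value at every overlap, and strictly below the annealed value
when `α b² > 1`; for every bounded Borel potential the annealed value is exact up to the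
second-moment threshold; for `exp f = 1 - l cos (t z)` with `1 ≤ (1 + √3) l exp (-t²/2)` the two
meet at the exact critical density. -/
theorem result :
    (∀ (f : ℝ → ℝ) (a : ℝ) (ν : Measure ℝ) (_ : IsFiniteMeasure ν), ν.real Set.univ < a →
      (∀ x, Real.exp (f x) = a - ∫ t, Real.cos (t * x) ∂ν) → ∀ α : ℝ, 0 < α →
      (∃ p, Tendsto (fun N : ℕ => cubePressure f N ⌊α * N⌋₊) atTop (𝓝 p) ∧
        IsLUB (Set.range fun N : ℕ => poissonMean (α * (N + 1)) (cubePressure f (N + 1))) p ∧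
        (∀ η, 0 < η → ∀ᶠ N : ℕ in atTop, ∀ d ρ ε, IsProbabilityMeasure ρ → 0 < ε → ε < 1 →
          p - η ≤ cubeCavity f α N d ρ ε) ∧
        (∀ N, 1 ≤ N → ∀ η, 0 < η → ∃ d ρ ε, IsProbabilityMeasure ρ ∧ 0 < ε ∧ ε < 1 ∧
          cubeCavity f α N d ρ ε ≤ p + η) ∧
        (∀ q, 0 ≤ q → q < 1 → p ≤ gardnerIsing f α q) ∧
        (1 < α * hermiteRatio f ^ 2 → p < α * Real.log (∫ z, Real.exp (f z) ∂gaussianReal 0 1))) ∧
      ∃ p, Tendsto (fun N : ℕ => spherePressure f N ⌊α * N⌋₊) atTop (𝓝 p) ∧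
        IsLUB (Set.range fun N : ℕ => poissonMean (α * (N + 1)) (spherePressure f (N + 1))) p ∧
        (∀ η, 0 < η → ∀ᶠ N : ℕ in atTop, ∀ d ρ ε, IsProbabilityMeasure ρ → 0 < ε → ε < 1 →
          p - η ≤ sphereCavity f α N d ρ ε) ∧
        (∀ N, 1 ≤ N → ∀ η, 0 < η → ∃ d ρ ε, IsProbabilityMeasure ρ ∧ 0 < ε ∧ ε < 1 ∧
          sphereCavity f α N d ρ ε ≤ p + η) ∧
        (∀ q, 0 ≤ q → q < 1 → p ≤ gardnerSphere f α q) ∧
        (1 < α * hermiteRatio f ^ 2 → p < α * Real.log (∫ z, Real.exp (f z) ∂gaussianReal 0 1))) ∧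
    (∀ (f : ℝ → ℝ) (B β α : ℝ), Measurable f → (∀ x, |f x| ≤ B) → 0 ≤ β → 0 < α → α * β ≤ 1 →
      (∀ q ∈ Set.Icc (-1 : ℝ) 1, Small.corr (fun x => Real.exp (f x)) q ≤
        (∫ z, Real.exp (f z) ∂gaussianReal 0 1) ^ 2 * Real.exp (β * q ^ 2 / 2)) →
      Tendsto (fun N : ℕ => cubePressure f N ⌊α * N⌋₊) atTop
        (𝓝 (α * Real.log (∫ z, Real.exp (f z) ∂gaussianReal 0 1))) ∧
      Tendsto (fun N : ℕ => spherePressure f N ⌊α * N⌋₊) atTop
        (𝓝 (α * Real.log (∫ z, Real.exp (f z) ∂gaussianReal 0 1)))) ∧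
    ∀ l t α : ℝ, l < 1 → 1 ≤ (1 + Real.sqrt 3) * (l * Real.exp (-t ^ 2 / 2)) → 0 < α →
      let f := fun x => Real.log (1 - l * Real.cos (t * x))
      let c0 := 1 - l * Real.exp (-t ^ 2 / 2)
      (Tendsto (fun N : ℕ => cubePressure f N ⌊α * N⌋₊) atTop (𝓝 (α * Real.log c0)) ↔
          α * (l * t ^ 2 * Real.exp (-t ^ 2 / 2) / c0) ^ 2 ≤ 1) ∧
        (Tendsto (fun N : ℕ => spherePressure f N ⌊α * N⌋₊) atTop (𝓝 (α * Real.log c0)) ↔
          α * (l * t ^ 2 * Real.exp (-t ^ 2 / 2) / c0) ^ 2 ≤ 1) :=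
  ⟨fun _ _ _ _ hlt heq _ hα => free_energy_phase hlt heq hα,
    fun _ _ _ _ hm hB hβ hα hαβ hcorr => annealed_limit ⟨hm, hB⟩ hβ hα hαβ hcorr,
    fun _ _ _ hl hlt hα => cos_critical hl hlt hα⟩

end Vale.Agent.Results.P157.FreeEnergy
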