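import Vale.Agent.P157F.Main
import Vale.Agent.P157F.Sph.Main

namespace Vale.Agent.Results.P157.PerceptronFormula

open MeasureTheory ProbabilityTheory Filter Vale.Agent.P157 Vale.Agent.P157F
open scoped Topology

/-- For every bounded Borel potential and every density the pressure of the perceptron converges, on
the cube and on the sphere, to the infimum of the variational formula over finite overlap paths. -/
theorem result (f : ℝ → ℝ) (hf : Measurable f) (hfb : ∃ B, ∀ x, |f x| ≤ B) (α : ℝ) (hα : 0 < α) :
    (∃ v, Tendsto (fun N : ℕ => cubePressure f N ⌊α * N⌋₊) atTop (𝓝 v) ∧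
        IsGLB (cubeValues f α) v) ∧
      ∃ v, Tendsto (fun N : ℕ => spherePressure f N ⌊α * N⌋₊) atTop (𝓝 v) ∧
        IsGLB (sphValues f α) v :=
  ⟨cube_formula hf hfb hα, sph_formula hf hfb hα⟩

end Vale.Agent.Results.P157.PerceptronFormula
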